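import Mathlib.Analysis.Calculus.VectorField
import Mathlib.Analysis.Calculus.FDeriv.Symmetric
import Mathlib.Analysis.Calculus.ContDiff.Operations

/-! Connections on a vector space. -/

namespace Vale.Agent.P225I

open scoped ContDiff
open VectorField

noncomputable section

variable {V : Type} [NormedAddCommGroup V] [NormedSpace ℝ V]

/-- the connection with Christoffel map `Γ` -/
def nb (Γ : V → V →L[ℝ] V →L[ℝ] V) (X Y : V → V) : V → V :=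
  fun p => fderiv ℝ Y p (X p) + Γ p (X p) (Y p)

/-- its curvature tensor -/
def rm (Γ : V → V →L[ℝ] V →L[ℝ] V) (p u v w : V) : V :=
  fderiv ℝ Γ p u v w - fderiv ℝ Γ p v u w + Γ p u (Γ p v w) - Γ p v (Γ p u w)

variable {Γ : V → V →L[ℝ] V →L[ℝ] V} {X Y Z : V → V}

theorem dif {W : Type} [NormedAddCommGroup W] [NormedSpace ℝ W] {f : V → W}
    (h : ContDiff ℝ ∞ f) (p : V) : HasFDerivAt f (fderiv ℝ f p) p :=
  (h.differentiable (by simp) p).hasFDerivAt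

theorem cdf {W : Type} [NormedAddCommGroup W] [NormedSpace ℝ W] {f : V → W}
    (h : ContDiff ℝ ∞ f) : ContDiff ℝ ∞ (fderiv ℝ f) :=
  h.fderiv_right (m := ∞) (by simp)

theorem nb_smooth (hΓ : ContDiff ℝ ∞ Γ) (hX : ContDiff ℝ ∞ X) (hY : ContDiff ℝ ∞ Y) :
    ContDiff ℝ ∞ (nb Γ X Y) :=
  ((cdf hY).clm_apply hX).add ((hΓ.clm_apply hX).clm_apply hY)

theorem fd_bil {W : Type} [NormedAddCommGroup W] [NormedSpace ℝ W] {B : V → V →L[ℝ] V →L[ℝ] W}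
    (hB : ContDiff ℝ ∞ B) (hY : ContDiff ℝ ∞ Y) (hZ : ContDiff ℝ ∞ Z) (p v : V) :
    fderiv ℝ (fun y => B y (Y y) (Z y)) p v = fderiv ℝ B p v (Y p) (Z p)
      + B p (fderiv ℝ Y p v) (Z p) + B p (Y p) (fderiv ℝ Z p v) := by
  rw [(((dif hB p).clm_apply (dif hY p)).clm_apply (dif hZ p)).fderiv]
  simp
  abel

theorem fd_der {W : Type} [NormedAddCommGroup W] [NormedSpace ℝ W] {u : V → W}
    (hu : ContDiff ℝ ∞ u) (hY : ContDiff ℝ ∞ Y) (p v : V) :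
    fderiv ℝ (fun y => fderiv ℝ u y (Y y)) p v = fderiv ℝ (fderiv ℝ u) p v (Y p)
      + fderiv ℝ u p (fderiv ℝ Y p v) := by
  rw [((dif (cdf hu) p).clm_apply (dif hY p)).fderiv]
  simp
  abel

theorem fd_nb (hΓ : ContDiff ℝ ∞ Γ) (hY : ContDiff ℝ ∞ Y) (hZ : ContDiff ℝ ∞ Z) (p v : V) :
    fderiv ℝ (nb Γ Y Z) p v = fderiv ℝ (fderiv ℝ Z) p v (Y p) + fderiv ℝ Z p (fderiv ℝ Y p v)
      + (fderiv ℝ Γ p v (Y p) (Z p) + Γ p (fderiv ℝ Y p v) (Z p) + Γ p (Y p) (fderiv ℝ Z p v)) := by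
  have h := ((dif ((cdf hZ).clm_apply hY) p).add (dif ((hΓ.clm_apply hY).clm_apply hZ) p)).fderiv
  have e : nb Γ Y Z = (fun y => fderiv ℝ Z y (Y y)) + fun y => Γ y (Y y) (Z y) := rfl
  rw [e, h, ContinuousLinearMap.add_apply, fd_der hZ hY, fd_bil hΓ hY hZ]

theorem curv_nb (hΓ : ContDiff ℝ ∞ Γ) (hX : ContDiff ℝ ∞ X) (hY : ContDiff ℝ ∞ Y)
    (hZ : ContDiff ℝ ∞ Z) (p : V) :
    nb Γ X (nb Γ Y Z) p - nb Γ Y (nb Γ X Z) p - nb Γ (lieBracket ℝ X Y) Z p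
      = rm Γ p (X p) (Y p) (Z p) := by
  have hs : fderiv ℝ (fderiv ℝ Z) p (X p) (Y p) = fderiv ℝ (fderiv ℝ Z) p (Y p) (X p) :=
    (hZ.contDiffAt.isSymmSndFDerivAt (by simp; norm_cast)).eq _ _
  have e1 : nb Γ X (nb Γ Y Z) p = fderiv ℝ (nb Γ Y Z) p (X p) + Γ p (X p) (nb Γ Y Z p) := rfl
  have e2 : nb Γ Y (nb Γ X Z) p = fderiv ℝ (nb Γ X Z) p (Y p) + Γ p (Y p) (nb Γ X Z p) := rfl
  rw [e1, e2, fd_nb hΓ hY hZ, fd_nb hΓ hX hZ, hs]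
  simp only [nb, rm, lieBracket, map_add, map_sub, ContinuousLinearMap.sub_apply]
  abel

theorem hess_nb {u : V → ℝ} (hu : ContDiff ℝ ∞ u) (hY : ContDiff ℝ ∞ Y) (p : V) :
    fderiv ℝ (fun y => fderiv ℝ u y (Y y)) p (X p) - fderiv ℝ u p (nb Γ X Y p)
      = fderiv ℝ (fderiv ℝ u) p (X p) (Y p) - fderiv ℝ u p (Γ p (X p) (Y p)) := by
  rw [fd_der hu hY]
  simp only [nb, map_add]
  ring

end

end Vale.Agent.P225I
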