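import Vale.Agent.P225.Bdl.B4
import Vale.Agent.P225I45.Abs

/-! The metric and the Christoffel map in coordinates. -/

namespace Vale.Agent.P225I

open scoped ContDiff
open Vale.Agent.P225 Vale.Agent.P225.RMetric Matrix

noncomputable section

variable {n : ℕ}

/-- coordinate vectors -/
abbrev ee (i : Fin n) : Rn n := EuclideanSpace.single i 1

/-- coordinate functionals -/
abbrev pr (i : Fin n) : Rn n →L[ℝ] ℝ := EuclideanSpace.proj i

theorem expand (v : Rn n) : v = ∑ i, v i • ee i := by
  ext j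
  simp [Finset.sum_apply, Pi.single_apply]

theorem lin_ext {f : Rn n → ℝ} (hf : IsLinearMap ℝ f) (h : ∀ i, f (ee i) = 0) (v : Rn n) :
    f v = 0 := by
  rw [expand v, ← hf.mk'_apply, map_sum]
  simp [h]

theorem clm_expand {W : Type} [NormedAddCommGroup W] [NormedSpace ℝ W] (T : Rn n →L[ℝ] W)
    (v : Rn n) : T v = ∑ i, v i • T (ee i) := by
  conv_lhs => rw [expand v]
  simp only [map_sum, map_smul]

variable (g : RMetric n)

/-- the metric as a bilinear map -/
def bb (x : Rn n) : Rn n →L[ℝ] Rn n →L[ℝ] ℝ := ∑ i, ∑ j, g.G x i j • (pr i).smulRight (pr j)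

/-- the Christoffel map -/
def gm (x : Rn n) : Rn n →L[ℝ] Rn n →L[ℝ] Rn n :=
  ∑ k, ∑ i, ∑ j, christoffel g.G k i j x • (pr i).smulRight ((pr j).smulRight (ee k))

theorem bb_apply (x v w : Rn n) : bb g x v w = ∑ i, ∑ j, g.G x i j * v i * w j := by
  simp [bb, ContinuousLinearMap.sum_apply, mul_assoc]

theorem bb_quad (x v : Rn n) : bb g x v v = g.quad x v := bb_apply g x v v

theorem G_symm (x : Rn n) (i j : Fin n) : g.G x i j = g.G x j i := by
  simpa using ((g.pos x).isHermitian.apply j i)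

theorem bb_symm (x v w : Rn n) : bb g x v w = bb g x w v := by
  rw [bb_apply, bb_apply, Finset.sum_comm]
  refine Finset.sum_congr rfl fun i _ => Finset.sum_congr rfl fun j _ => ?_
  rw [G_symm g x j i]; ring

theorem bb_ee (x : Rn n) (i j : Fin n) : bb g x (ee i) (ee j) = g.G x i j := by
  simp [bb_apply, Pi.single_apply]

theorem bb_pos (x v : Rn n) (hv : v ≠ 0) : 0 < bb g x v v := by
  have h := (g.pos x).dotProduct_mulVec_pos (x := v.ofLp) (by simpa using hv)
  rw [bb_apply]
  refine h.trans_eq ?_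
  simp only [dotProduct, mulVec, star_trivial, Finset.mul_sum]
  refine Finset.sum_congr rfl fun i _ => Finset.sum_congr rfl fun j _ => by ring

theorem smc {W : Type} [NormedAddCommGroup W] [NormedSpace ℝ W] {f : Rn n → ℝ}
    (hf : ContDiff ℝ ∞ f) (c : W) : ContDiff ℝ ∞ fun x => f x • c := hf.smul contDiff_const

theorem bb_smooth : ContDiff ℝ ∞ (bb g) :=
  ContDiff.sum fun i _ => ContDiff.sum fun j _ => smc (g.smooth i j) _

theorem pd_smooth {f : Rn n → ℝ} (hf : ContDiff ℝ ∞ f) (i : Fin n) : ContDiff ℝ ∞ (pd i f) :=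
  (cdf hf).clm_apply contDiff_const

theorem chr_smooth (k i j : Fin n) : ContDiff ℝ ∞ (christoffel g.G k i j) :=
  contDiff_const.mul (ContDiff.sum fun l _ => (g.inv_contDiff k l).mul
    (((pd_smooth (g.smooth j l) i).add (pd_smooth (g.smooth i l) j)).sub
      (pd_smooth (g.smooth i j) l)))

theorem gm_smooth : ContDiff ℝ ∞ (gm g) :=
  ContDiff.sum fun k _ => ContDiff.sum fun i _ => ContDiff.sum fun j _ =>
    smc (chr_smooth g k i j) _

theorem gm_ee (x : Rn n) (i j k : Fin n) : gm g x (ee i) (ee j) k = christoffel g.G k i j x := by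
  simp [gm, ContinuousLinearMap.sum_apply, Pi.single_apply, Finset.sum_apply]

theorem chr_symm (k i j : Fin n) : christoffel g.G k i j = christoffel g.G k j i := by
  funext x
  simp only [christoffel]
  have : (fun y => g.G y i j) = fun y => g.G y j i := funext fun y => G_symm g y i j
  rw [this]
  congr 1
  exact Finset.sum_congr rfl fun l _ => by ring

theorem gm_symm (x u v : Rn n) : gm g x u v = gm g x v u := by
  ext k
  have h : ∀ i j, gm g x (ee i) (ee j) k - gm g x (ee j) (ee i) k = 0 := fun i j => by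
    rw [gm_ee, gm_ee, chr_symm, sub_self]
  have h1 : ∀ i v, gm g x (ee i) v k - gm g x v (ee i) k = 0 := fun i =>
    lin_ext ⟨fun a b => by simp; ring, fun c a => by simp; ring⟩ (h i)
  exact sub_eq_zero.1 (lin_ext (f := fun u => gm g x u v k - gm g x v u k)
    ⟨fun a b => by simp; ring, fun c a => by simp; ring⟩ (fun i => h1 i v) u)

theorem fd_ev {W W' : Type} [NormedAddCommGroup W] [NormedSpace ℝ W] [NormedAddCommGroup W']
    [NormedSpace ℝ W'] {f : Rn n → W} (hf : ContDiff ℝ ∞ f) (L : W →L[ℝ] W') (x u : Rn n) :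
    fderiv ℝ (fun y => L (f y)) x u = L (fderiv ℝ f x u) := by
  rw [show (fun y => L (f y)) = L ∘ f from rfl, (L.hasFDerivAt.comp x (dif hf x)).fderiv]
  rfl

theorem fd_bb (x : Rn n) (l i j : Fin n) :
    fderiv ℝ (bb g) x (ee l) (ee i) (ee j) = pd l (fun y => g.G y i j) x := by
  have h := fd_bil (bb_smooth g) (contDiff_const (c := ee i)) (contDiff_const (c := ee j)) x (ee l)
  simp only [bb_ee, fderiv_fun_const, Pi.zero_apply, ContinuousLinearMap.zero_apply, map_zero,
    add_zero] at h
  exact h.symm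

theorem fd_gm (x : Rn n) (l i j k : Fin n) :
    fderiv ℝ (gm g) x (ee l) (ee i) (ee j) k = pd l (christoffel g.G k i j) x := by
  have h := fd_bil (gm_smooth g) (contDiff_const (c := ee i)) (contDiff_const (c := ee j)) x (ee l)
  simp only [fderiv_fun_const, Pi.zero_apply, ContinuousLinearMap.zero_apply, map_zero,
    add_zero] at h
  have h2 := fd_ev (((gm_smooth g).clm_apply (contDiff_const (c := ee i))).clm_apply
    (contDiff_const (c := ee j))) (pr k) x (ee l)
  rw [h] at h2
  refine h2.symm.trans ?_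
  congr 2
  exact funext fun y => gm_ee g y i j k

theorem G_inv (x : Rn n) (a l : Fin n) :
    ∑ k, g.G x a k * (g.G x)⁻¹ k l = if a = l then 1 else 0 := by
  rw [← Matrix.mul_apply, Matrix.mul_nonsing_inv _ (g.pos x).det_pos.ne'.isUnit, Matrix.one_apply]

theorem bb_gm (x : Rn n) (i j a : Fin n) : bb g x (gm g x (ee i) (ee j)) (ee a)
    = (1 / 2) * (pd i (fun y => g.G y j a) x + pd j (fun y => g.G y i a) x
      - pd a (fun y => g.G y i j) x) := by
  rw [bb_symm, clm_expand (bb g x (ee a))]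
  simp only [gm_ee, bb_ee, smul_eq_mul, christoffel, Finset.mul_sum, Finset.sum_mul]
  rw [Finset.sum_comm]
  have h : ∀ l, ∑ k, 1 / 2 * ((g.G x)⁻¹ k l * (pd i (fun y => g.G y j l) x
      + pd j (fun y => g.G y i l) x - pd l (fun y => g.G y i j) x)) * g.G x a k
      = (∑ k, g.G x a k * (g.G x)⁻¹ k l) * ((1 / 2) * (pd i (fun y => g.G y j l) x
      + pd j (fun y => g.G y i l) x - pd l (fun y => g.G y i j) x)) := fun l => by
    rw [Finset.sum_mul]
    exact Finset.sum_congr rfl fun k _ => by ring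
  simp only [h, G_inv]
  simp

theorem metric_gm (x u v w : Rn n) :
    fderiv ℝ (bb g) x u v w = bb g x (gm g x u v) w + bb g x v (gm g x u w) := by
  have h : ∀ l i j, fderiv ℝ (bb g) x (ee l) (ee i) (ee j) - (bb g x (gm g x (ee l) (ee i)) (ee j)
      + bb g x (ee i) (gm g x (ee l) (ee j))) = 0 := fun l i j => by
    rw [fd_bb, bb_symm g x (ee i), bb_gm, bb_gm]
    have e1 : (fun y => g.G y j i) = fun y => g.G y i j := funext fun y => G_symm g y j i
    rw [e1]
    ring
  have h1 : ∀ l i w, fderiv ℝ (bb g) x (ee l) (ee i) w - (bb g x (gm g x (ee l) (ee i)) w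
      + bb g x (ee i) (gm g x (ee l) w)) = 0 := fun l i =>
    lin_ext ⟨fun a b => by simp; ring, fun c a => by simp; ring⟩ (h l i)
  have h2 : ∀ l v, fderiv ℝ (bb g) x (ee l) v w - (bb g x (gm g x (ee l) v) w
      + bb g x v (gm g x (ee l) w)) = 0 := fun l =>
    lin_ext ⟨fun a b => by simp; ring, fun c a => by simp; ring⟩ (fun i => h1 l i w)
  exact sub_eq_zero.1 (lin_ext (f := fun u => fderiv ℝ (bb g) x u v w - (bb g x (gm g x u v) w
      + bb g x v (gm g x u w))) ⟨fun a b => by simp; ring, fun c a => by simp; ring⟩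
      (fun l => h2 l v) u)

/-- the trace over an orthonormal frame -/
theorem frame_sum (x : Rn n) {f : Fin n → Rn n}
    (hf : ∀ i j, bb g x (f i) (f j) = if i = j then 1 else 0)
    (β : Rn n →L[ℝ] Rn n →L[ℝ] ℝ) :
    ∑ a, β (f a) (f a) = ∑ i, ∑ j, (g.G x)⁻¹ i j * β (ee i) (ee j) := by
  let P : Matrix (Fin n) (Fin n) ℝ := Matrix.of fun a i => f a i
  have h1 : P * (g.G x * Pᵀ) = 1 := by
    ext a b
    rw [Matrix.one_apply, ← hf, bb_apply]
    simp only [Matrix.mul_apply, P, Matrix.of_apply, Matrix.transpose_apply, Finset.mul_sum]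
    exact Finset.sum_congr rfl fun i _ => Finset.sum_congr rfl fun j _ => by ring
  have h2 : g.G x * (Pᵀ * P) = 1 := by
    rw [← Matrix.mul_assoc]
    exact mul_eq_one_comm.1 h1
  have h3 : (g.G x)⁻¹ = Pᵀ * P := Matrix.inv_eq_right_inv h2
  have h4 : ∀ a, β (f a) (f a) = ∑ i, ∑ j, f a i * f a j * β (ee i) (ee j) := fun a => by
    rw [clm_expand β, ContinuousLinearMap.sum_apply]
    refine Finset.sum_congr rfl fun i _ => ?_
    rw [ContinuousLinearMap.smul_apply, clm_expand (β (ee i)), Finset.smul_sum]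
    exact Finset.sum_congr rfl fun j _ => by simp only [smul_eq_mul]; ring
  simp only [h4, h3, Matrix.mul_apply, P, Matrix.of_apply, Matrix.transpose_apply, Finset.sum_mul]
  rw [Finset.sum_comm]
  refine Finset.sum_congr rfl fun i _ => ?_
  rw [Finset.sum_comm]

end

end Vale.Agent.P225I
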