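import Mathlib.Geometry.Manifold.VectorBundle.CovariantDerivative.Basic
import Mathlib.Geometry.Manifold.VectorField.LieBracket
import Mathlib.Geometry.Manifold.Riemannian.Basic
import Mathlib.Analysis.InnerProductSpace.PiL2
import Mathlib.Analysis.SpecialFunctions.Pow.Real
import Mathlib.LinearAlgebra.Dimension.Basic

/-! Riemannian manifolds, Ricci curvature and harmonic functions of polynomial growth. -/

namespace Vale.Agent.P225I

open scoped Manifold ContDiff ENNReal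
open Bundle VectorField

noncomputable section

/-- The model space `ℝⁿ`. -/
abbrev E (n : ℕ) : Type := EuclideanSpace ℝ (Fin n)

variable (n : ℕ) (M : Type) [TopologicalSpace M] [ChartedSpace (E n) M]
  [IsManifold 𝓘(ℝ, E n) ∞ M]

/-- Smooth Riemannian metrics on `M`. -/
abbrev Met : Type :=
  ContMDiffRiemannianMetric 𝓘(ℝ, E n) ∞ (E n) (TangentSpace 𝓘(ℝ, E n) : M → Type)

/-- Affine connections on `M`. -/
abbrev Conn : Type := CovariantDerivative 𝓘(ℝ, E n) (E n) (TangentSpace 𝓘(ℝ, E n) : M → Type)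

omit [IsManifold 𝓘(ℝ, E n) ∞ M] in
/-- Vector fields on `M`. -/
abbrev Fld : Type := (x : M) → TangentSpace 𝓘(ℝ, E n) x

variable {n M}

/-- `X` is a smooth vector field. -/
def Smooth (X : Fld n M) : Prop :=
  ContMDiff 𝓘(ℝ, E n) (𝓘(ℝ, E n).prod 𝓘(ℝ, E n)) ∞
    fun x => (⟨x, X x⟩ : TangentBundle 𝓘(ℝ, E n) M)

omit [IsManifold 𝓘(ℝ, E n) ∞ M] in
/-- The derivative `X u` of the function `u` along `X`. -/
def der (X : Fld n M) (u : M → ℝ) (x : M) : ℝ := mvfderiv 𝓘(ℝ, E n) u x (X x)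

variable (g : Met n M) (cov : Conn n M)

/-- The function `g(X, Y)`. -/
def ip (X Y : Fld n M) (x : M) : ℝ := g.inner x (X x) (Y x)

/-- The vector field `∇_X Y`. -/
def nab (X Y : Fld n M) : Fld n M := fun x => cov Y x (X x)

/-- `cov` is a Levi-Civita connection of `g`: torsion free and metric. -/
def IsLeviCivita : Prop :=
  ∀ X Y, Smooth X → Smooth Y → nab cov X Y - nab cov Y X = mlieBracket 𝓘(ℝ, E n) X Y ∧
    ∀ Z, Smooth Z → der X (ip g Y Z) = ip g (nab cov X Y) Z + ip g Y (nab cov X Z)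

/-- The curvature `R(X, Y) Z = ∇_X ∇_Y Z - ∇_Y ∇_X Z - ∇_[X,Y] Z`. -/
def curv (X Y Z : Fld n M) : Fld n M :=
  nab cov X (nab cov Y Z) - nab cov Y (nab cov X Z) - nab cov (mlieBracket 𝓘(ℝ, E n) X Y) Z

/-- The Hessian `∇²u (X, Y) = X (Y u) - (∇_X Y) u`. -/
def hess (u : M → ℝ) (X Y : Fld n M) : M → ℝ := der X (der Y u) - der (nab cov X Y) u

/-- `F` consists of `n` smooth vector fields which are orthonormal at `x`. -/
def Frame (x : M) (F : Fin n → Fld n M) : Prop :=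
  ∀ i j, Smooth (F i) ∧ ip g (F i) (F j) x = if i = j then 1 else 0

/-- `Ric ≥ 0`, where `Ric(Y, Y)` is the trace of `X ↦ R(X, Y) Y`. -/
def RicNonneg : Prop :=
  ∀ x F, Frame g x F → ∀ Y, Smooth Y → 0 ≤ ∑ i, ip g (curv cov (F i) Y Y) (F i) x

/-- `u` is smooth and `Δ u`, the trace of the Hessian, vanishes. -/
def Harmonic (u : M → ℝ) : Prop :=
  ContMDiff 𝓘(ℝ, E n) 𝓘(ℝ, ℝ) ∞ u ∧ ∀ x F, Frame g x F → ∑ i, hess cov u (F i) (F i) x = 0

/-- The Riemannian distance `d_g` of Mathlib. -/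
def dist (x y : M) : ℝ≥0∞ :=
  letI : RiemannianBundle (TangentSpace 𝓘(ℝ, E n) : M → Type) := ⟨g.toRiemannianMetric⟩
  Manifold.riemannianEDist 𝓘(ℝ, E n) x y

/-- `(M, g)` is complete: Cauchy sequences for `d_g` converge. -/
def Complete : Prop :=
  ∀ u : ℕ → M, (∀ ε > 0, ∃ N, ∀ p ≥ N, ∀ q ≥ N, dist g (u p) (u q) < ε) →
    ∃ x, Filter.Tendsto u Filter.atTop (nhds x)

/-- The set `H_d(M, g)` of harmonic functions with `|u x| ≤ C (1 + d_g(o, x))^d`. -/
def harm (o : M) (d : ℝ) : Set (M → ℝ) :=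
  {u | Harmonic g cov u ∧ ∃ C : ℝ, ∀ x, |u x| ≤ C * (1 + (dist g o x).toReal) ^ d}

/-- The dimension of the space of harmonic polynomials of degree at most `k` on `ℝⁿ`. -/
def hE (n k : ℕ) : ℕ := (n + k - 1).choose k + (n + k - 2).choose (k - 1)

/-- The metric `g` on `ℝⁿ` is Euclidean on the unit ball, and a diffeomorphism `F` of `ℝⁿ` has
`|dF v|² ≤ g(v, v) ≤ (1 + ε)² |dF v|²` everywhere. -/
def NearFlat (g : Met n (E n)) (ε : ℝ) : Prop :=
  (∀ x v w : E n, ‖x‖ ≤ 1 → g.inner x v w = inner ℝ v w) ∧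
    ∃ F : E n ≃ E n, ContDiff ℝ ∞ F ∧ ContDiff ℝ ∞ F.symm ∧ ∀ x v : E n,
      ‖fderiv ℝ F x v‖ ^ 2 ≤ g.inner x v v ∧ g.inner x v v ≤ (1 + ε) ^ 2 * ‖fderiv ℝ F x v‖ ^ 2

/-- The assertion of Q1 in dimension `n`. -/
def Yau (n : ℕ) : Prop :=
  ∀ (M : Type) [TopologicalSpace M] [T2Space M] [SecondCountableTopology M] [ConnectedSpace M]
    [ChartedSpace (E n) M] [IsManifold 𝓘(ℝ, E n) ∞ M] (g : Met n M) (cov : Conn n M) (o : M),
    IsLeviCivita g cov → Complete g → RicNonneg g cov → ∀ k : ℕ, 1 ≤ k →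
      ∀ H : Submodule ℝ (M → ℝ), (H : Set (M → ℝ)) = harm g cov o k → Module.rank ℝ H ≤ hE n k

end

end Vale.Agent.P225I
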