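import Vale.Agent.P225I45.Co

/-! The Ricci tensor and the Laplace operator as traces. -/

namespace Vale.Agent.P225I

open scoped ContDiff
open Vale.Agent.P225 Vale.Agent.P225.RMetric Matrix

noncomputable section

variable {n : ℕ} (g : RMetric n)

theorem Ginv_symm (x : Rn n) (i j : Fin n) : (g.G x)⁻¹ i j = (g.G x)⁻¹ j i := by
  simpa using ((g.pos x).inv.isHermitian.apply j i)

theorem frame_trace (x : Rn n) {f : Fin n → Rn n}
    (hf : ∀ i j, bb g x (f i) (f j) = if i = j then 1 else 0) (T : Rn n →L[ℝ] Rn n) :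
    ∑ a, bb g x (T (f a)) (f a) = ∑ i, T (ee i) i := by
  refine (frame_sum g x hf ((bb g x).comp T)).trans (Finset.sum_congr rfl fun i _ => ?_)
  have h : ∀ j, (g.G x)⁻¹ i j * ((bb g x).comp T) (ee i) (ee j)
      = ∑ k, T (ee i) k * (g.G x k j * (g.G x)⁻¹ j i) := fun j => by
    rw [ContinuousLinearMap.comp_apply, bb_symm, clm_expand (bb g x (ee j)), Finset.mul_sum]
    refine Finset.sum_congr rfl fun k _ => ?_
    rw [bb_ee, G_symm g x j k, Ginv_symm g x i j, smul_eq_mul]
    ring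
  simp only [h]
  rw [Finset.sum_comm]
  simp only [← Finset.mul_sum, G_inv]
  simp

theorem gm_co (x w : Rn n) (i k : Fin n) :
    gm g x (ee i) w k = ∑ m, w m * christoffel g.G k i m x := by
  rw [clm_expand (gm g x (ee i))]
  simp [Finset.sum_apply, gm_ee]

theorem rm_ee (x : Rn n) (i j : Fin n) :
    ∑ l, rm (gm g) x (ee l) (ee j) (ee i) l = ricci g.G i j x := by
  refine Finset.sum_congr rfl fun l _ => ?_
  simp only [rm, PiLp.add_apply, PiLp.sub_apply, fd_gm, gm_co, gm_ee]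
  simp only [Pi.single_apply, EuclideanSpace.single_apply, ite_mul, one_mul, zero_mul,
    Finset.sum_ite_eq', Finset.mem_univ, if_true]
  rw [chr_symm g l j i, chr_symm g l l i, Finset.sum_sub_distrib, add_sub_assoc]
  congr 2
  · exact Finset.sum_congr rfl fun m _ => by rw [chr_symm g m j i]; ring
  · exact Finset.sum_congr rfl fun m _ => by rw [chr_symm g m l i]; ring

theorem ric_frame (x y : Rn n) {f : Fin n → Rn n}
    (hf : ∀ i j, bb g x (f i) (f j) = if i = j then 1 else 0) :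
    ∑ a, bb g x (rm (gm g) x (f a) y y) (f a) = ∑ i, ∑ j, ricci g.G i j x * y i * y j := by
  let T : Rn n →L[ℝ] Rn n := ((fderiv ℝ (gm g) x).flip y).flip y - (fderiv ℝ (gm g) x y).flip y
    + (gm g x).flip (gm g x y y) - (gm g x y).comp ((gm g x).flip y)
  have hT : ∀ u, T u = rm (gm g) x u y y := fun u => rfl
  have h0 := frame_trace g x hf T
  simp only [hT] at h0
  rw [h0]
  have h1 : ∀ j w, ∑ l, rm (gm g) x (ee l) (ee j) w l - ∑ i, ricci g.G i j x * w i = 0 := fun j =>
    lin_ext ⟨fun a b => by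
      simp only [rm, map_add, PiLp.add_apply, PiLp.sub_apply, Finset.sum_add_distrib,
        Finset.sum_sub_distrib, mul_add]
      ring, fun c a => by
      simp only [rm, map_smul, PiLp.add_apply, PiLp.sub_apply, PiLp.smul_apply, smul_eq_mul,
        mul_sub, Finset.mul_sum, mul_add, mul_left_comm]⟩
      (fun i => by rw [rm_ee]; simp [Pi.single_apply])
  refine sub_eq_zero.1 (lin_ext (f := fun u => ∑ l, rm (gm g) x (ee l) u y l
    - ∑ i, ∑ j, ricci g.G i j x * y i * u j) ⟨fun a b => ?_, fun c a => ?_⟩ (fun j => ?_) y)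
  · simp only [rm, map_add, ContinuousLinearMap.add_apply, PiLp.add_apply, PiLp.sub_apply,
      Finset.sum_add_distrib, Finset.sum_sub_distrib, mul_add]
    ring
  · simp only [rm, map_smul, ContinuousLinearMap.smul_apply, PiLp.add_apply, PiLp.sub_apply,
      PiLp.smul_apply, smul_eq_mul, mul_sub, Finset.mul_sum, mul_add, mul_left_comm]
  · rw [← h1 j y]
    simp [Pi.single_apply]

theorem pd_mul {f h : Rn n → ℝ} (hf : ContDiff ℝ ∞ f) (hh : ContDiff ℝ ∞ h) (i : Fin n)
    (x : Rn n) : pd i (fun y => f y * h y) x = pd i f x * h x + f x * pd i h x := by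
  simp only [pd]
  rw [((dif hf x).fun_mul (dif hh x)).fderiv]
  simp
  ring

theorem pd_sum {f : Fin n → Rn n → ℝ} (hf : ∀ j, ContDiff ℝ ∞ (f j)) (i : Fin n) (x : Rn n) :
    pd i (fun y => ∑ j, f j y) x = ∑ j, pd i (f j) x := by
  simp only [pd]
  rw [(HasFDerivAt.fun_sum fun j _ => dif (hf j) x).fderiv]
  simp [ContinuousLinearMap.sum_apply]

theorem pd_inv (x : Rn n) (l i j : Fin n) : pd l (fun y => (g.G y)⁻¹ i j) x
    = -∑ a, ∑ b, (g.G x)⁻¹ i a * pd l (fun y => g.G y a b) x * (g.G x)⁻¹ b j := by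
  let D : Matrix (Fin n) (Fin n) ℝ := Matrix.of fun a b => pd l (fun y => g.G y a b) x
  let D' : Matrix (Fin n) (Fin n) ℝ := Matrix.of fun a b => pd l (fun y => (g.G y)⁻¹ a b) x
  have h : D * (g.G x)⁻¹ + g.G x * D' = 0 := by
    ext a b
    have h1 := pd_sum (fun k => (g.smooth a k).mul (g.inv_contDiff k b)) l x
    simp only [G_inv, pd_mul (g.smooth _ _) (g.inv_contDiff _ _)] at h1
    simp only [Matrix.add_apply, Matrix.mul_apply, D, D', Matrix.of_apply, Matrix.zero_apply,
      ← Finset.sum_add_distrib, ← h1]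
    simp [pd]
  have h2 : D' = -((g.G x)⁻¹ * D * (g.G x)⁻¹) := by
    have h3 := congrArg (fun A => (g.G x)⁻¹ * A) h
    simp only [Matrix.mul_add, ← Matrix.mul_assoc,
      Matrix.nonsing_inv_mul _ (g.pos x).det_pos.ne'.isUnit, Matrix.one_mul, Matrix.mul_zero] at h3
    exact eq_neg_of_add_eq_zero_right h3
  have h4 := congrFun (congrFun h2 i) j
  simp only [Matrix.neg_apply, Matrix.mul_apply, D, D', Matrix.of_apply, Finset.sum_mul] at h4
  rw [h4, Finset.sum_comm]

theorem line {f : Rn n → ℝ} (hf : ContDiff ℝ ∞ f) (x : Rn n) (l : Fin n) :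
    HasDerivAt (fun s : ℝ => f (x + s • ee l)) (pd l f x) 0 :=
  (dif hf x).hasLineDerivAt (ee l)

theorem pd_dens (x : Rn n) (l : Fin n) : pd l g.dens x
    = g.dens x * ((1 / 2) * ∑ a, ∑ b, (g.G x)⁻¹ a b * pd l (fun y => g.G y a b) x) := by
  have h1 := hasDerivAt_det (M := fun s : ℝ => g.G (x + s • ee l))
    (D := Matrix.of fun a b => pd l (fun y => g.G y a b) x) (t := 0)
    (fun a b => line (g.smooth a b) x l)
  have hp := (g.pos x).det_pos
  have h2 := (h1.sqrt (by simpa using hp.ne')).unique (line g.dens_contDiff x l)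
  rw [← h2]
  have h3 : (g.G x).adjugate = (g.G x).det • (g.G x)⁻¹ := by
    rw [Matrix.inv_def, smul_smul, Ring.inverse_eq_inv', mul_inv_cancel₀ hp.ne', one_smul]
  simp only [zero_smul, add_zero, h3, Matrix.trace, Matrix.diag_apply, Matrix.mul_apply,
    Matrix.of_apply, Matrix.smul_apply, smul_eq_mul, dens]
  have hs := Real.sqrt_pos.2 hp
  rw [div_eq_iff (by positivity)]
  have h5 : ∀ S : ℝ, √(g.G x).det * (1 / 2 * S) * (2 * √(g.G x).det) = (g.G x).det * S := by
    intro S
    conv_rhs => rw [← Real.mul_self_sqrt hp.le]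
    ring
  rw [h5]
  simp only [Finset.mul_sum]
  refine Finset.sum_congr rfl fun a _ => Finset.sum_congr rfl fun b _ => ?_
  rw [Ginv_symm g x b a]
  ring

theorem chr_trace (x : Rn n) (k : Fin n) : ∑ i, ∑ j, (g.G x)⁻¹ i j * christoffel g.G k i j x
    = -∑ i, ((g.dens x)⁻¹ * pd i g.dens x * (g.G x)⁻¹ i k + pd i (fun y => (g.G y)⁻¹ i k) x) := by
  have hd := (g.dens_pos x).ne'
  simp only [pd_dens, pd_inv, ← mul_assoc, inv_mul_cancel₀ hd, one_mul, christoffel]
  set A := (g.G x)⁻¹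
  have hA : ∀ i j, A i j = A j i := Ginv_symm g x
  set D : Fin n → Fin n → Fin n → ℝ := fun l a b => pd l (fun y => g.G y a b) x with hD
  change ∑ i, ∑ j, A i j * (1 / 2) * ∑ l, A k l * (D i j l + D j i l - D l i j)
    = -∑ i, (1 / 2 * (∑ a, ∑ b, A a b * D i a b) * A i k + -∑ a, ∑ b, A i a * D i a b * A b k)
  have e1 : ∑ i, ∑ j, ∑ l, A i j * A k l * D j i l = ∑ i, ∑ j, ∑ l, A i j * A k l * D i j l := by
    rw [Finset.sum_comm]
    simp only [hA]
  have e2 : ∑ i, ∑ j, ∑ l, A i j * A k l * D l i j = ∑ i, (∑ a, ∑ b, A a b * D i a b) * A i k := by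
    simp only [Finset.sum_mul]
    rw [Finset.sum_comm_cycle]
    refine Finset.sum_congr rfl fun a _ => Finset.sum_congr rfl fun b _ =>
      Finset.sum_congr rfl fun c _ => ?_
    rw [hA k a]; ring
  have e3 : ∑ i, ∑ j, ∑ l, A i j * A k l * D i j l = ∑ i, ∑ a, ∑ b, A i a * D i a b * A b k := by
    refine Finset.sum_congr rfl fun a _ => Finset.sum_congr rfl fun b _ =>
      Finset.sum_congr rfl fun c _ => ?_
    rw [hA k c]; ring
  have e4 : ∑ i, ∑ j, A i j * (1 / 2) * ∑ l, A k l * (D i j l + D j i l - D l i j)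
      = 1 / 2 * (∑ i, ∑ j, ∑ l, A i j * A k l * D i j l + ∑ i, ∑ j, ∑ l, A i j * A k l * D j i l
        - ∑ i, ∑ j, ∑ l, A i j * A k l * D l i j) := by
    simp only [← Finset.sum_add_distrib, ← Finset.sum_sub_distrib, Finset.mul_sum]
    refine Finset.sum_congr rfl fun a _ => Finset.sum_congr rfl fun b _ =>
      Finset.sum_congr rfl fun c _ => by ring
  rw [e4, e1, e2, e3]
  simp only [Finset.sum_add_distrib, Finset.sum_neg_distrib, mul_assoc, ← Finset.mul_sum]
  ring

theorem lap_frame {u : Rn n → ℝ} (hu : ContDiff ℝ ∞ u) (x : Rn n) {f : Fin n → Rn n}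
    (hf : ∀ i j, bb g x (f i) (f j) = if i = j then 1 else 0) :
    ∑ a, (fderiv ℝ (fderiv ℝ u) x (f a) (f a) - fderiv ℝ u x (gm g x (f a) (f a)))
      = g.lap u x := by
  have h0 := frame_sum g x hf (fderiv ℝ (fderiv ℝ u) x
    - ((ContinuousLinearMap.compL ℝ (Rn n) (Rn n) ℝ) (fderiv ℝ u x)).comp (gm g x))
  simp only [ContinuousLinearMap.sub_apply, ContinuousLinearMap.comp_apply,
    ContinuousLinearMap.compL_apply] at h0
  rw [h0]
  have h1 : ∀ i j, fderiv ℝ (fderiv ℝ u) x (ee i) (ee j) = pd i (pd j u) x := fun i j => by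
    have h := fd_der hu (contDiff_const (c := ee j)) x (ee i)
    simp only [fderiv_fun_const, Pi.zero_apply, ContinuousLinearMap.zero_apply, map_zero,
      add_zero] at h
    exact h.symm
  have h2 : ∀ i j, fderiv ℝ u x (gm g x (ee i) (ee j))
      = ∑ k, christoffel g.G k i j x * pd k u x := fun i j => by
    rw [clm_expand (fderiv ℝ u x)]
    simp only [gm_ee, smul_eq_mul, pd]
  have h3 : ∀ i, pd i (fun y => g.dens y * ∑ j, (g.G y)⁻¹ i j * pd j u y) x
      = pd i g.dens x * ∑ j, (g.G x)⁻¹ i j * pd j u x + g.dens x * ∑ j,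
        (pd i (fun y => (g.G y)⁻¹ i j) x * pd j u x + (g.G x)⁻¹ i j * pd i (pd j u) x) := by
    intro i
    rw [pd_mul g.dens_contDiff
      (ContDiff.sum fun j _ => (g.inv_contDiff i j).mul (pd_smooth hu j)),
      pd_sum fun j => (g.inv_contDiff i j).mul (pd_smooth hu j)]
    simp only [pd_mul (g.inv_contDiff _ _) (pd_smooth hu _)]
  have hd := (g.dens_pos x).ne'
  have h4 : ∑ i, ∑ j, (g.G x)⁻¹ i j * ∑ k, christoffel g.G k i j x * pd k u x
      = ∑ k, (∑ i, ∑ j, (g.G x)⁻¹ i j * christoffel g.G k i j x) * pd k u x := by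
    simp only [Finset.mul_sum, Finset.sum_mul]
    rw [Finset.sum_comm_cycle]
    simp only [mul_assoc]
  simp only [h1, h2, lap, h3, mul_sub, Finset.sum_sub_distrib, h4, chr_trace]
  simp only [neg_mul, Finset.sum_neg_distrib, sub_neg_eq_add, Finset.sum_mul]
  rw [Finset.sum_comm (f := fun k i => ((g.dens x)⁻¹ * pd i g.dens x * (g.G x)⁻¹ i k
    + pd i (fun y => (g.G y)⁻¹ i k) x) * pd k u x)]
  simp only [Finset.mul_sum, ← Finset.sum_add_distrib]
  refine Finset.sum_congr rfl fun i _ => Finset.sum_congr rfl fun j _ => ?_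
  field_simp
  ring

end

end Vale.Agent.P225I
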