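import Vale.Agent.P225.H485.Main
import Vale.Agent.P225I45.Defs
import Vale.Agent.P225I45.Tr

/-! The metric on `ℝⁿ` as a Riemannian manifold. -/

namespace Vale.Agent.P225I

open scoped Manifold ContDiff ENNReal Topology
open Bundle VectorField Vale.Agent.P225 Vale.Agent.P225.RMetric MeasureTheory Set Filter Matrix

noncomputable section

section General

variable {n : ℕ} {M : Type} [TopologicalSpace M] [ChartedSpace (E n) M]
  [IsManifold 𝓘(ℝ, E n) ∞ M] {g : Met n M} {cov cov' : Conn n M}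

theorem ip_comm (X Y : Fld n M) : ip g X Y = ip g Y X := funext fun x => g.symm x _ _

theorem ip_sub (X Y Z : Fld n M) (x : M) : ip g (X - Y) Z x = ip g X Z x - ip g Y Z x := by
  simp [ip]

theorem koszul (h : IsLeviCivita g cov) (h' : IsLeviCivita g cov') {X Y Z : Fld n M}
    (hX : Smooth X) (hY : Smooth Y) (hZ : Smooth Z) (x : M) :
    ip g (nab cov X Y) Z x = ip g (nab cov' X Y) Z x := by
  have t : ∀ A B C, Smooth A → Smooth B → ip g (nab cov A B) C x - ip g (nab cov B A) C x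
      = ip g (nab cov' A B) C x - ip g (nab cov' B A) C x := fun A B C hA hB => by
    rw [← ip_sub, ← ip_sub, (h A B hA hB).1, (h' A B hA hB).1]
  have m : ∀ A B C, Smooth A → Smooth B → Smooth C →
      ip g (nab cov A B) C x + ip g (nab cov A C) B x
      = ip g (nab cov' A B) C x + ip g (nab cov' A C) B x := fun A B C hA hB hC => by
    have := congrFun (((h A B hA hB).2 C hC).symm.trans ((h' A B hA hB).2 C hC)) x
    rwa [ip_comm B, ip_comm B] at this
  linarith [t X Y Z hX hY, t X Z Y hX hZ, t Y Z X hY hZ, m X Y Z hX hY hZ, m Y X Z hY hX hZ,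
    m Z X Y hZ hX hY]

theorem len_eq (g : Met n M) (γ : ℝ → M) :
    (letI : RiemannianBundle (TangentSpace 𝓘(ℝ, E n) : M → Type) := ⟨g.toRiemannianMetric⟩
    Manifold.pathELength 𝓘(ℝ, E n) γ 0 1) = ∫⁻ t in Ioo (0 : ℝ) 1, ENNReal.ofReal
      √(g.inner (γ t) (mfderiv 𝓘(ℝ, ℝ) 𝓘(ℝ, E n) γ t (1 : ℝ))
        (mfderiv 𝓘(ℝ, ℝ) 𝓘(ℝ, E n) γ t (1 : ℝ))) := by
  letI : RiemannianBundle (TangentSpace 𝓘(ℝ, E n) : M → Type) := ⟨g.toRiemannianMetric⟩
  rw [Manifold.pathELength_eq_lintegral_mfderiv_Ioo]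
  refine lintegral_congr fun t => ?_
  rw [← ofReal_norm, norm_eq_sqrt_real_inner]
  rfl

theorem dist_le (g : Met n M) {γ : ℝ → M} (hγ : ContMDiff 𝓘(ℝ, ℝ) 𝓘(ℝ, E n) 1 γ) :
    dist g (γ 0) (γ 1) ≤ ∫⁻ t in Ioo (0 : ℝ) 1, ENNReal.ofReal
      √(g.inner (γ t) (mfderiv 𝓘(ℝ, ℝ) 𝓘(ℝ, E n) γ t (1 : ℝ))
        (mfderiv 𝓘(ℝ, ℝ) 𝓘(ℝ, E n) γ t (1 : ℝ))) := by
  letI : RiemannianBundle (TangentSpace 𝓘(ℝ, E n) : M → Type) := ⟨g.toRiemannianMetric⟩
  rw [← len_eq]
  exact Manifold.riemannianEDist_le_pathELength hγ.contMDiffOn rfl rfl zero_le_one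

theorem exists_curve (g : Met n M) {x y : M} {r : ℝ≥0∞} (h : dist g x y < r) :
    ∃ γ : ℝ → M, γ 0 = x ∧ γ 1 = y ∧ ContMDiff 𝓘(ℝ, ℝ) 𝓘(ℝ, E n) 1 γ ∧
      ∫⁻ t in Ioo (0 : ℝ) 1, ENNReal.ofReal
      √(g.inner (γ t) (mfderiv 𝓘(ℝ, ℝ) 𝓘(ℝ, E n) γ t (1 : ℝ))
        (mfderiv 𝓘(ℝ, ℝ) 𝓘(ℝ, E n) γ t (1 : ℝ))) < r := by
  letI : RiemannianBundle (TangentSpace 𝓘(ℝ, E n) : M → Type) := ⟨g.toRiemannianMetric⟩
  obtain ⟨γ, h0, h1, h2, h3, -⟩ :=
    Manifold.exists_lt_locally_constant_of_riemannianEDist_lt h zero_lt_one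
  exact ⟨γ, h0, h1, h2, by rwa [← len_eq]⟩

theorem dist_tri (g : Met n M) (x y z : M) : dist g x z ≤ dist g x y + dist g y z := by
  letI : RiemannianBundle (TangentSpace 𝓘(ℝ, E n) : M → Type) := ⟨g.toRiemannianMetric⟩
  exact Manifold.riemannianEDist_triangle

theorem dist_sym (g : Met n M) (x y : M) : dist g x y = dist g y x := by
  letI : RiemannianBundle (TangentSpace 𝓘(ℝ, E n) : M → Type) := ⟨g.toRiemannianMetric⟩
  exact Manifold.riemannianEDist_comm

theorem dist_nhds [RegularSpace M] (g : Met n M) {x : M} {s : Set M} (hs : s ∈ 𝓝 x) :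
    ∃ c > 0, {y | dist g x y < c} ⊆ s := by
  letI : RiemannianBundle (TangentSpace 𝓘(ℝ, E n) : M → Type) := ⟨g.toRiemannianMetric⟩
  haveI : IsContinuousRiemannianBundle (E n) (fun x : M => TangentSpace 𝓘(ℝ, E n) x) :=
    ⟨g.inner, g.contMDiff.continuous, fun _ _ _ => rfl⟩
  exact setOfPred_riemannianEDist_lt_subset_nhds' 𝓘(ℝ, E n) hs

end General

variable {n : ℕ} (g : RMetric n)

theorem bb_bdd (x : Rn n) : Bornology.IsVonNBounded ℝ {v : Rn n | bb g x v v < 1} := by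
  obtain ⟨c, hc, h⟩ := (isCompact_sphere (0 : Rn n) 1).exists_forall_le'
    (f := fun v => bb g x v v) (a := 0) (by fun_prop) fun v hv => bb_pos g x v (by
      rintro rfl
      simp at hv)
  refine (NormedSpace.isVonNBounded_closedBall ℝ (Rn n) (√c⁻¹)).subset fun v hv => ?_
  rw [mem_closedBall_zero_iff]
  rcases eq_or_ne v 0 with rfl | h0
  · simp
  have hn : 0 < ‖v‖ := norm_pos_iff.2 h0
  have h1 := h (‖v‖⁻¹ • v) (by simp [norm_smul, hn.ne'])
  have h2 : bb g x v v < 1 := hv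
  simp only [map_smul, ContinuousLinearMap.smul_apply, smul_eq_mul] at h1
  refine Real.le_sqrt_of_sq_le ?_
  rw [le_inv_comm₀ (by positivity) hc]
  refine h1.trans ?_
  rw [← mul_assoc, ← mul_inv, ← sq]
  exact mul_le_of_le_one_right (by positivity) h2.le

set_option backward.isDefEq.respectTransparency false in
/-- the Riemannian metric -/
def met : Met n (E n) where
  inner x := (bb g x : Rn n →L[ℝ] Rn n →L[ℝ] ℝ)
  symm x v w := bb_symm g x v w
  pos x v hv := bb_pos g x v hv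
  isVonNBounded x := bb_bdd g x
  contMDiff := by
    intro x
    rw [contMDiffAt_section]
    convert! (bb_smooth g).contMDiff x
    ext v w
    simp [hom_trivializationAt_apply, ContinuousLinearMap.inCoordinates, TangentSpace]

set_option backward.isDefEq.respectTransparency false in
theorem mvf (u : E n → ℝ) (x v : E n) : mvfderiv 𝓘(ℝ, E n) u x v = fderiv ℝ u x v := by
  simp only [mvfderiv, mfderiv_eq_fderiv]
  rfl

theorem der_eq (X : Fld n (E n)) (u : E n → ℝ) (x : E n) : der X u x = fderiv ℝ u x (X x) :=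
  mvf u x _

theorem sm_iff {X : Fld n (E n)} : Smooth X ↔ ContDiff ℝ ∞ (X : E n → E n) :=
  contMDiff_vectorSpace_iff_contDiff

theorem brk_eq (X Y : Fld n (E n)) :
    mlieBracket 𝓘(ℝ, E n) X Y = lieBracket ℝ (X : E n → E n) Y := by
  rw [← mlieBracketWithin_univ, mlieBracketWithin_eq_lieBracketWithin]
  exact lieBracketWithin_univ

set_option backward.isDefEq.respectTransparency false in
theorem md_dif {σ : Fld n (E n)} {x : E n} (h : MDifferentiableAt 𝓘(ℝ, E n)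
    (𝓘(ℝ, E n).prod 𝓘(ℝ, E n)) (fun y => (⟨y, σ y⟩ : TangentBundle 𝓘(ℝ, E n) (E n))) x) :
    DifferentiableAt ℝ (σ : E n → E n) x :=
  (((contMDiff_snd_tangentBundle_modelSpace (n := 1) (E n) 𝓘(ℝ, E n)).mdifferentiableAt
    one_ne_zero).comp x h).differentiableAt

/-- the covariant derivative of a field -/
def cv (σ : E n → E n) (x : E n) : E n →L[ℝ] E n := fderiv ℝ σ x + (gm g x).flip (σ x)

theorem cv_add {σ τ : E n → E n} {x : E n} (hσ : DifferentiableAt ℝ σ x)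
    (hτ : DifferentiableAt ℝ τ x) : cv g (σ + τ) x = cv g σ x + cv g τ x := by
  simp only [cv, fderiv_add hσ hτ, Pi.add_apply, map_add]
  abel

theorem cv_smul {σ : E n → E n} {f : E n → ℝ} {x : E n} (hσ : DifferentiableAt ℝ σ x)
    (hf : DifferentiableAt ℝ f x) :
    cv g (f • σ) x = f x • cv g σ x + (fderiv ℝ f x).smulRight (σ x) := by
  simp only [cv, fderiv_smul hf hσ, Pi.smul_apply', map_smul, smul_add]
  abel

/-- the Levi-Civita connection -/
def lc : Conn n (E n) where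
  toFun σ x := cv g σ x
  isCovariantDerivativeOnUniv :=
    { add := fun hσ hτ _ => cv_add g (md_dif hσ) (md_dif hτ)
      leibniz := fun {σ f x} hσ hf _ => by
        refine (cv_smul g (md_dif hσ) hf.differentiableAt).trans ?_
        have e : mvfderiv 𝓘(ℝ, E n) f x = fderiv ℝ f x := ContinuousLinearMap.ext (mvf f x)
        rw [e]
        rfl }

theorem nab_lc (X Y : Fld n (E n)) : nab (lc g) X Y = nb (gm g) X Y := rfl

theorem nb_tors (X Y : E n → E n) (x : E n) :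
    nb (gm g) X Y x - nb (gm g) Y X x = lieBracket ℝ X Y x := by
  simp only [nb, lieBracket, gm_symm g x (X x)]
  abel

theorem nb_met (X : E n → E n) {Y Z : E n → E n} (hY : ContDiff ℝ ∞ Y) (hZ : ContDiff ℝ ∞ Z)
    (x : E n) : fderiv ℝ (fun y => bb g y (Y y) (Z y)) x (X x)
      = bb g x (nb (gm g) X Y x) (Z x) + bb g x (Y x) (nb (gm g) X Z x) := by
  rw [fd_bil (bb_smooth g) hY hZ, metric_gm]
  simp only [nb, map_add, ContinuousLinearMap.add_apply]
  ring

theorem lc_isLC : IsLeviCivita (met g) (lc g) := by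
  intro X Y hX hY
  refine ⟨funext fun x => ?_, fun Z hZ => funext fun x => ?_⟩
  · rw [brk_eq]
    exact nb_tors g X Y x
  · rw [der_eq]
    exact nb_met g X (sm_iff.1 hY) (sm_iff.1 hZ) x

theorem bb_inj (x a b : E n) (h : ∀ z, bb g x a z = bb g x b z) : a = b := by
  by_contra hne
  have h2 := bb_pos g x (a - b) (sub_ne_zero.2 hne)
  rw [map_sub (bb g x), ContinuousLinearMap.sub_apply] at h2
  exact h2.ne' (sub_eq_zero.2 (h _))

variable {g} {cov : Conn n (E n)}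

theorem nab_eq (h : IsLeviCivita (met g) cov) {X Y : Fld n (E n)} (hX : Smooth X)
    (hY : Smooth Y) : nab cov X Y = nb (gm g) X Y := by
  funext x
  exact bb_inj g x _ _ fun z =>
    koszul h (lc_isLC g) hX hY (Z := fun _ => z) (sm_iff.2 contDiff_const) x

theorem curv_eq (h : IsLeviCivita (met g) cov) {X Y Z : Fld n (E n)} (hX : Smooth X)
    (hY : Smooth Y) (hZ : Smooth Z) (x : E n) :
    curv cov X Y Z x = rm (gm g) x (X x) (Y x) (Z x) := by
  have s : ∀ {A B : Fld n (E n)}, Smooth A → Smooth B → Smooth (nb (gm g) A B) := fun hA hB =>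
    sm_iff.2 (nb_smooth (gm_smooth g) (sm_iff.1 hA) (sm_iff.1 hB))
  have b : Smooth (lieBracket ℝ (X : E n → E n) Y) :=
    sm_iff.2 ((sm_iff.1 hX).lieBracket_vectorField (sm_iff.1 hY) (by simp))
  unfold curv
  rw [brk_eq, nab_eq h hY hZ, nab_eq h hX hZ, nab_eq h hX (s hY hZ), nab_eq h hY (s hX hZ),
    nab_eq h b hZ]
  exact curv_nb (gm_smooth g) (sm_iff.1 hX) (sm_iff.1 hY) (sm_iff.1 hZ) x

theorem ric (h : IsLeviCivita (met g) cov) (hr : g.RicciNonneg) : RicNonneg (met g) cov := by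
  intro x F hF Y hY
  have e : ∀ i, ip (met g) (curv cov (F i) Y Y) (F i) x
      = bb g x (rm (gm g) x (F i x) (Y x) (Y x)) (F i x) := fun i => by
    rw [← curv_eq h (hF i i).1 hY hY]
    rfl
  simp only [e]
  rw [ric_frame g x (Y x) (f := fun i => F i x) fun i j => (hF i j).2]
  exact hr x (Y x)

theorem frame_exists (g : RMetric n) (x : E n) : ∃ F, Frame (met g) x F := by
  obtain ⟨R, hR⟩ := exists_gram (g.pos x).posSemidef
  have hd : IsUnit R.det := by
    have h := (g.pos x).det_pos.ne'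
    rw [hR, Matrix.det_mul, Matrix.det_transpose] at h
    exact (left_ne_zero_of_mul h).isUnit
  have h1 : (R⁻¹)ᵀ * g.G x * R⁻¹ = 1 := by
    rw [hR, ← Matrix.mul_assoc, ← Matrix.transpose_mul, Matrix.mul_nonsing_inv _ hd,
      Matrix.transpose_one, Matrix.one_mul, Matrix.mul_nonsing_inv _ hd]
  refine ⟨fun a _ => WithLp.toLp 2 fun i => R⁻¹ i a, fun a b => ⟨sm_iff.2 contDiff_const, ?_⟩⟩
  refine (bb_apply g x _ _).trans ?_
  rw [← Matrix.one_apply, ← h1, Finset.sum_comm]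
  simp only [Matrix.mul_apply, Matrix.transpose_apply, Finset.sum_mul]
  exact Finset.sum_congr rfl fun i _ => Finset.sum_congr rfl fun j _ => by ring

theorem hess_eq (h : IsLeviCivita (met g) cov) {u : E n → ℝ} (hu : ContDiff ℝ ∞ u) {x : E n}
    {F : Fin n → Fld n (E n)} (hF : Frame (met g) x F) :
    ∑ i, hess cov u (F i) (F i) x = g.lap u x := by
  rw [← lap_frame g hu x (f := fun i => F i x) fun i j => (hF i j).2]
  refine Finset.sum_congr rfl fun i _ => ?_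
  have e : der (F i) u = fun y => fderiv ℝ u y (F i y) := funext (der_eq _ u)
  rw [hess, Pi.sub_apply, der_eq, der_eq, e, nab_eq h (hF i i).1 (hF i i).1]
  exact hess_nb hu (sm_iff.1 (hF i i).1) x

theorem lint (g : RMetric n) {c : ℝ → E n} (hc : ContDiff ℝ 1 c) :
    ∫⁻ t in Ioo (0 : ℝ) 1, ENNReal.ofReal √((met g).inner (c t)
      (mfderiv 𝓘(ℝ, ℝ) 𝓘(ℝ, E n) c t (1 : ℝ)) (mfderiv 𝓘(ℝ, ℝ) 𝓘(ℝ, E n) c t (1 : ℝ)))
      = ENNReal.ofReal (g.length c) := by
  have e : ∀ t, (met g).inner (c t) (mfderiv 𝓘(ℝ, ℝ) 𝓘(ℝ, E n) c t (1 : ℝ))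
      (mfderiv 𝓘(ℝ, ℝ) 𝓘(ℝ, E n) c t (1 : ℝ)) = g.quad (c t) (deriv c t) := fun t => by
    rw [mfderiv_eq_fderiv, ← bb_quad]
    rfl
  simp only [e]
  rw [length, intervalIntegral.integral_of_le zero_le_one, integral_Ioc_eq_integral_Ioo,
    ofReal_integral_eq_lintegral_ofReal
      (((B.speed_cont g hc).integrableOn_Icc (a := 0) (b := 1)).mono_set Ioo_subset_Icc_self)
      (Eventually.of_forall fun t => Real.sqrt_nonneg _)]

theorem dist_eq (g : RMetric n) (x y : E n) : dist (met g) x y = ENNReal.ofReal (g.dist x y) := by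
  refine le_antisymm (ENNReal.le_of_forall_pos_le_add fun ε hε _ => ?_)
    (le_of_forall_gt_imp_ge_of_dense fun r hr => ?_)
  · obtain ⟨L, ⟨c, hc, rfl, rfl, rfl⟩, hL⟩ :=
      Real.lt_sInf_add_pos (B.dist_set_nonempty g x y) (ε := ε) hε
    refine ((dist_le (met g) hc.contMDiff).trans_eq (lint g hc)).trans ?_
    refine (ENNReal.ofReal_le_ofReal hL.le).trans (ENNReal.ofReal_add_le.trans ?_)
    rw [ENNReal.ofReal_coe_nnreal]
    rfl
  · obtain ⟨c, rfl, rfl, hc, hl⟩ := exists_curve (met g) hr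
    rw [lint g hc.contDiff] at hl
    exact (ENNReal.ofReal_le_ofReal
      (csInf_le (B.dist_set_bdd g _ _) ⟨c, hc.contDiff, rfl, rfl, rfl⟩)).trans hl.le

theorem dist_real (g : RMetric n) (x y : E n) : (dist (met g) x y).toReal = g.dist x y := by
  rw [dist_eq, ENNReal.toReal_ofReal (B.dist_nonneg'' g x y)]

theorem complete (hc : g.Complete) : Complete (met g) := by
  intro u hu
  obtain ⟨x, hx⟩ := hc u fun ε hε => by
    obtain ⟨N, hN⟩ := hu (ENNReal.ofReal ε) (ENNReal.ofReal_pos.2 hε)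
    refine ⟨N, fun p hp q hq => ?_⟩
    have := hN p hp q hq
    rwa [dist_eq, ENNReal.ofReal_lt_ofReal_iff hε] at this
  refine ⟨x, fun s hs => ?_⟩
  obtain ⟨c, hc0, hc⟩ := dist_nhds (met g) hs
  obtain ⟨ε, -, hε, h2⟩ := ENNReal.lt_iff_exists_real_btwn.1 hc0
  rw [ENNReal.ofReal_pos] at hε
  obtain ⟨N, hN⟩ := hx ε hε
  refine mem_map.2 (mem_atTop_sets.2 ⟨N, fun p hp => hc ?_⟩)
  change dist (met g) x (u p) < c
  rw [dist_sym, dist_eq]
  exact ((ENNReal.ofReal_lt_ofReal_iff hε).2 (hN p hp)).trans h2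

theorem harm_sub (h : IsLeviCivita (met g) cov) (o : E n) (k : ℕ) :
    g.harm k ⊆ harm (met g) cov o k := by
  rintro u ⟨hu, hl, C, hC⟩
  refine ⟨⟨hu.contMDiff, fun x F hF => (hess_eq h hu hF).trans (hl x)⟩,
    |C| * (1 + g.dist 0 o) ^ k, fun x => ?_⟩
  have h0 := B.dist_nonneg'' g 0 x
  have h1 := B.dist_nonneg'' g 0 o
  have h2 := B.dist_nonneg'' g o x
  have h3 : g.dist 0 x ≤ g.dist 0 o + g.dist o x := by
    have := dist_tri (met g) 0 o x
    rwa [dist_eq, dist_eq, dist_eq, ← ENNReal.ofReal_add h1 h2,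
      ENNReal.ofReal_le_ofReal_iff (by positivity)] at this
  have h4 := hC x
  rw [Real.rpow_natCast] at h4
  rw [dist_real, Real.rpow_natCast, mul_assoc, ← mul_pow]
  refine h4.trans ((mul_le_mul_of_nonneg_right (le_abs_self C) (by positivity)).trans ?_)
  gcongr
  nlinarith [mul_nonneg h1 h2]

theorem lap_lin (g : RMetric n) {u v : E n → ℝ} (hu : ContDiff ℝ ∞ u) (hv : ContDiff ℝ ∞ v)
    (a : ℝ) (x : E n) : g.lap (a • u + v) x = a * g.lap u x + g.lap v x := by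
  obtain ⟨F, hF⟩ := frame_exists g x
  obtain ⟨f, hf⟩ : ∃ f : Fin n → Rn n, ∀ i j, bb g x (f i) (f j) = if i = j then 1 else 0 :=
    ⟨fun i => F i x, fun i j => (hF i j).2⟩
  have e : fderiv ℝ (a • u + v) = a • fderiv ℝ u + fderiv ℝ v :=
    funext fun y => (((dif hu y).const_smul a).add (dif hv y)).fderiv
  have e2 : fderiv ℝ (a • fderiv ℝ u + fderiv ℝ v) x
      = a • fderiv ℝ (fderiv ℝ u) x + fderiv ℝ (fderiv ℝ v) x :=
    (((dif (cdf hu) x).const_smul a).add (dif (cdf hv) x)).fderiv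
  have hs : ContDiff ℝ ∞ (a • u + v) := (hu.const_smul a).add hv
  rw [← lap_frame g hs x hf, ← lap_frame g hu x hf, ← lap_frame g hv x hf,
    Finset.mul_sum, ← Finset.sum_add_distrib]
  refine Finset.sum_congr rfl fun i _ => ?_
  rw [e, e2]
  simp only [ContinuousLinearMap.add_apply, ContinuousLinearMap.smul_apply, Pi.add_apply,
    Pi.smul_apply, smul_eq_mul]
  ring

theorem harm_lin (h : IsLeviCivita (met g) cov) (o : E n) (d : ℝ) {u v : E n → ℝ} (a : ℝ)
    (hu : u ∈ harm (met g) cov o d) (hv : v ∈ harm (met g) cov o d) :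
    a • u + v ∈ harm (met g) cov o d := by
  obtain ⟨⟨u1, u2⟩, C, hC⟩ := hu
  obtain ⟨⟨v1, v2⟩, D, hD⟩ := hv
  have hs : ContDiff ℝ ∞ (a • u + v) := (u1.contDiff.const_smul a).add v1.contDiff
  refine ⟨⟨hs.contMDiff, fun x F hF => ?_⟩, |a| * C + D, fun x => ?_⟩
  · rw [hess_eq h hs hF, lap_lin g u1.contDiff v1.contDiff, ← hess_eq h u1.contDiff hF,
      ← hess_eq h v1.contDiff hF, u2 x F hF, v2 x F hF, mul_zero, add_zero]
  · have h1 := mul_le_mul_of_nonneg_left (hC x) (abs_nonneg a)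
    have h2 := abs_add_le (a * u x) (v x)
    rw [abs_mul] at h2
    change |a * u x + v x| ≤ _
    linarith [hD x]

theorem harm_submodule (h : IsLeviCivita (met g) cov) (o : E n) (d : ℝ) :
    ∃ H : Submodule ℝ (E n → ℝ), (H : Set (E n → ℝ)) = harm (met g) cov o d := by
  have h0 : (0 : E n → ℝ) ∈ harm (met g) cov o d := by
    refine ⟨⟨contMDiff_const, fun x F hF => ?_⟩, 0, fun x => by simp⟩
    have hz : ContDiff ℝ ∞ (0 : E n → ℝ) := contDiff_const
    have := lap_lin g hz hz 1 x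
    rw [hess_eq h hz hF]
    rw [smul_zero, add_zero] at this
    linarith
  exact ⟨{ carrier := harm (met g) cov o d
           zero_mem' := h0
           add_mem' := fun hu hv => by simpa using harm_lin h o d 1 hu hv
           smul_mem' := fun a u hu => by simpa using harm_lin h o d a hu h0 }, rfl⟩

theorem near {ε : ℝ} (h1 : ∀ x, ‖x‖ ≤ 1 → g.G x = 1) (h2 : P225.NearFlat g ε) :
    NearFlat (met g) ε := by
  obtain ⟨F, a, b, c, -⟩ := h2
  refine ⟨fun x v w hx => (bb_apply g x v w).trans ?_, F, a, b, fun x v => ?_⟩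
  · simp [h1 x hx, Matrix.one_apply, PiLp.inner_apply, mul_comm]
  · have := c x v
    rw [← bb_quad] at this
    exact this

theorem main (n : ℕ) (hn : Even n) (h12 : 12 ≤ n) (ε : ℝ) (hε : 0 < ε) :
    ∃ c : ℝ, 0 < c ∧ ∃ k₀ : ℕ, ∀ k : ℕ, k₀ ≤ k → ∃ g : Met n (E n), NearFlat g ε ∧
      Complete g ∧ (∀ x y, dist g x y ≠ ⊤) ∧ (∀ x, ∃ F, Frame g x F) ∧
      (∃ cov, IsLeviCivita g cov) ∧ ∀ cov, IsLeviCivita g cov → RicNonneg g cov ∧
        ∀ o, ∃ H : Submodule ℝ (E n → ℝ), (H : Set (E n → ℝ)) = harm g cov o k ∧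
          ∃ N : ℕ, (1 + c) * (hE n k : ℝ) < N ∧ (N : Cardinal) ≤ Module.rank ℝ H := by
  obtain ⟨c, hc, k₀, h⟩ := H485.near_allEven n hn h12 ε hε
  refine ⟨c, hc, k₀, fun k hk => ?_⟩
  obtain ⟨g, h1, h2, h3, h4, N, hN, v, hv, hm⟩ := h k hk
  refine ⟨met g, near h3 h4, complete h1, fun x y => by rw [dist_eq]; exact ENNReal.ofReal_ne_top,
    frame_exists g, ⟨_, lc_isLC g⟩, fun cov hcov => ⟨ric hcov h2, fun o => ?_⟩⟩
  obtain ⟨H, hH⟩ := harm_submodule hcov o k
  have hmem : ∀ i, v i ∈ H := fun i => by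
    rw [← SetLike.mem_coe, hH]
    exact harm_sub hcov o k (hm i)
  refine ⟨H, hH, N, hN, ?_⟩
  have hli : LinearIndependent ℝ fun i => (⟨v i, hmem i⟩ : H) :=
    LinearIndependent.of_comp H.subtype hv
  simpa using hli.cardinal_lift_le_rank

theorem not_yau (n : ℕ) (hn : Even n) (h12 : 12 ≤ n) : ¬ Yau n := by
  intro hY
  obtain ⟨c, hc, k₀, h⟩ := main n hn h12 1 one_pos
  obtain ⟨g, -, h1, -, -, ⟨cov, hcov⟩, h2⟩ := h (k₀ + 1) (by omega)
  obtain ⟨H, hH, N, hN, hr⟩ := (h2 cov hcov).2 0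
  have h3 := hr.trans (hY (E n) g cov 0 hcov h1 (h2 cov hcov).1 (k₀ + 1) (by omega) H hH)
  have h4 : (N : ℝ) ≤ hE n (k₀ + 1) := by exact_mod_cast h3
  nlinarith [mul_nonneg hc.le (Nat.cast_nonneg (α := ℝ) (hE n (k₀ + 1)))]

end

end Vale.Agent.P225I
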