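import Vale.Agent.P225I45.St
import Vale.Agent.P225I45.Main

/-! The statement over a general model space. -/

namespace Vale.Agent.P225J

theorem fin (n : ℕ) (hn : Even n) (h12 : 12 ≤ n) :
    ¬ Yau (EuclideanSpace ℝ (Fin n)) n ∧ ∀ ε : ℝ, 0 < ε → ∃ c : ℝ, 0 < c ∧ ∃ k₀ : ℕ,
      ∀ k : ℕ, k₀ ≤ k → Fails (EuclideanSpace ℝ (Fin n)) n ε c k := by
  refine ⟨P225I.not_yau n hn h12, fun ε hε => ?_⟩
  obtain ⟨c, hc, k₀, h⟩ := P225I.main n hn h12 ε hε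
  refine ⟨c, hc, k₀, fun k hk => ?_⟩
  obtain ⟨g, ⟨h1, h2⟩, h3⟩ := h k hk
  exact ⟨g, ⟨fun x v hx => (h1 x v v hx).trans (real_inner_self_eq_norm_sq v), h2⟩, h3⟩

end Vale.Agent.P225J
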